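/-
S0170 team project, work package C1 (parking).  Owner: helper2.
Statement = `Crest.Agent.Helper21.Spec.parking` (same hypotheses, same conclusion).
-/
import Crest.Agent.Helper21.BoxFlow.Defs

set_option autoImplicit false
open Crest.AnalysisR.BoxFlow Crest.Agent.Helper21

namespace Crest.Agent.Helper2

variable {n : ℕ}

/-- A finite family of positive rationals has a positive lower bound. -/
theorem exists_pos_le {ι : Type*} [Finite ι] (f : ι → ℚ) (hf : ∀ i, 0 < f i) :
    ∃ δ : ℚ, 0 < δ ∧ ∀ i, δ ≤ f i := by
  rcases isEmpty_or_nonempty ι with hι | hι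
  · exact ⟨1, one_pos, fun i => isEmptyElim i⟩
  · obtain ⟨i₀, h⟩ := Finite.exists_min f
    exact ⟨f i₀, hf i₀, h⟩

/-- Two disjoint closed rational boxes are strictly separated in some coordinate. -/
theorem sep_of_disjoint (c₁ e₁ c₂ e₂ : Fin 3 → ℚ) (h1 : ∀ q, 0 < e₁ q) (h2 : ∀ q, 0 < e₂ q)
    (hd : Disjoint (box c₁ e₁) (box c₂ e₂)) : ∃ q, e₁ q + e₂ q < |c₁ q - c₂ q| := by
  by_contra hcon
  push Not at hcon
  have hx1 : ratPoint (fun q => max (c₁ q - e₁ q) (c₂ q - e₂ q)) ∈ box c₁ e₁ := by
    intro q
    simp only [ratPoint]
    rw [← Rat.cast_sub, ← Rat.cast_abs, Rat.cast_le, abs_le]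
    have h3 := abs_le.mp (hcon q)
    have h4 := le_max_left (c₁ q - e₁ q) (c₂ q - e₂ q)
    have h5 : max (c₁ q - e₁ q) (c₂ q - e₂ q) ≤ c₁ q + e₁ q :=
      max_le (by linarith [h1 q]) (by linarith)
    constructor <;> linarith
  have hx2 : ratPoint (fun q => max (c₁ q - e₁ q) (c₂ q - e₂ q)) ∈ box c₂ e₂ := by
    intro q
    simp only [ratPoint]
    rw [← Rat.cast_sub, ← Rat.cast_abs, Rat.cast_le, abs_le]
    have h3 := abs_le.mp (hcon q)
    have h4 := le_max_right (c₁ q - e₁ q) (c₂ q - e₂ q)
    have h5 : max (c₁ q - e₁ q) (c₂ q - e₂ q) ≤ c₂ q + e₂ q :=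
      max_le (by linarith) (by linarith [h2 q])
    constructor <;> linarith
  exact Set.disjoint_left.mp hd hx1 hx2

/-- The configuration obtained from `C` by translating the container `box (c j) (e j)` of box `j`
so that its centre becomes `z j`. -/
noncomputable def cfg (C : Config n) (c z : Fin n → Fin 3 → ℚ) : Config n :=
  fun j x => C j x + ratPoint (fun q => z j q - c j q)

/-- One translation step: the container of box `i` moves from centre `w` to centre `w'`
(differing only in coordinate `d`), all other containers (centres `z j`) being separated, in some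
coordinate, from both positions by more than `2 m`. -/
theorem step_move (a h : Fin n → Fin 3 → ℚ) (C : Config n) (c e : Fin n → Fin 3 → ℚ)
    (he : ∀ i j, 0 < e i j)
    (hC : ∀ i, ∀ x ∈ box (a i) (h i), C i x ∈ box (c i) (e i))
    (z : Fin n → Fin 3 → ℚ) (i : Fin n) (d : Fin 3) (w w' : Fin 3 → ℚ)
    (hw : ∀ q, q ≠ d → w' q = w q) (m : ℚ) (hm : 0 < m)
    (hsep : ∀ j, j ≠ i → ∃ q,
        (z j q + e j q + 2 * m < w q - e i q ∧ z j q + e j q + 2 * m < w' q - e i q) ∨
        (w q + e i q + 2 * m < z j q - e j q ∧ w' q + e i q + 2 * m < z j q - e j q)) :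
    Step a h (cfg C c (Function.update z i w)) (cfg C c (Function.update z i w')) := by
  have hmR : (0 : ℝ) < (m : ℝ) := by exact_mod_cast hm
  refine ⟨i, d, w' d - w d, fun _ => 0, fun q => min (w q) (w' q) - e i q - m,
    fun q => max (w q) (w' q) + e i q + m, m, rfl, ?_, hm, ?_, ?_, ?_⟩
  · intro q
    have h1 := he i q
    have h2 := min_le_max (a := w q) (b := w' q)
    linarith
  · intro x hx
    have hx' := hC i x hx
    constructor
    · intro q
      have h1 := abs_le.mp (hx' q)
      have h2 : ((min (w q) (w' q) : ℚ) : ℝ) ≤ (w q : ℝ) := by exact_mod_cast min_le_left _ _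
      have h3 : (w q : ℝ) ≤ ((max (w q) (w' q) : ℚ) : ℝ) := by exact_mod_cast le_max_left _ _
      simp only [cfg, Function.update_self, ratPoint, Pi.add_apply]
      constructor
      · have : ((min (w q) (w' q) - e i q - m : ℚ) : ℝ)
            = ((min (w q) (w' q) : ℚ) : ℝ) - (e i q : ℝ) - (m : ℝ) := by push_cast; ring
        rw [this]
        have : ((w q - c i q : ℚ) : ℝ) = (w q : ℝ) - (c i q : ℝ) := by push_cast; ring
        rw [this]
        linarith
      · have : ((max (w q) (w' q) + e i q + m : ℚ) : ℝ)
            = ((max (w q) (w' q) : ℚ) : ℝ) + (e i q : ℝ) + (m : ℝ) := by push_cast; ring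
        rw [this]
        have : ((w q - c i q : ℚ) : ℝ) = (w q : ℝ) - (c i q : ℝ) := by push_cast; ring
        rw [this]
        linarith
    · intro q
      have h1 := abs_le.mp (hx' q)
      have h2 : ((min (w q) (w' q) : ℚ) : ℝ) ≤ (w' q : ℝ) := by exact_mod_cast min_le_right _ _
      have h3 : (w' q : ℝ) ≤ ((max (w q) (w' q) : ℚ) : ℝ) := by exact_mod_cast le_max_right _ _
      have hval : shearMap d (w' d - w d) (fun _ => 0)
          (cfg C c (Function.update z i w) i x) q
          = C i x q + ((w' q : ℝ) - (c i q : ℝ)) := by
        simp only [shearMap, affFun, cfg, Function.update_self, ratPoint, Pi.add_apply,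
          Pi.smul_apply, smul_eq_mul, Rat.cast_zero, zero_mul, Finset.sum_const_zero, add_zero]
        by_cases hq : q = d
        · subst hq
          simp only [Pi.single_eq_same]
          push_cast
          ring
        · rw [Pi.single_eq_of_ne hq, hw q hq]
          push_cast
          ring
      rw [hval]
      constructor
      · have : ((min (w q) (w' q) - e i q - m : ℚ) : ℝ)
            = ((min (w q) (w' q) : ℚ) : ℝ) - (e i q : ℝ) - (m : ℝ) := by push_cast; ring
        rw [this]
        linarith
      · have : ((max (w q) (w' q) + e i q + m : ℚ) : ℝ)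
            = ((max (w q) (w' q) : ℚ) : ℝ) + (e i q : ℝ) + (m : ℝ) := by push_cast; ring
        rw [this]
        linarith
  · intro j hj x hx hmem
    have hx' := hC j x hx
    obtain ⟨q, hq⟩ := hsep j hj
    have h1 := abs_le.mp (hx' q)
    have h2 := hmem q
    simp only [cfg, Function.update_of_ne hj, ratPoint, Pi.add_apply] at h2
    rcases hq with ⟨hq1, hq2⟩ | ⟨hq1, hq2⟩
    · have h3 : z j q + e j q + 2 * m < min (w q) (w' q) - e i q := by
        rw [lt_sub_iff_add_lt]
        exact lt_min (by linarith) (by linarith)
      have h5 := h2.1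
      generalize min (w q) (w' q) = M at h3 h5
      have h4 : ((z j q + e j q + 2 * m : ℚ) : ℝ) < ((M - e i q : ℚ) : ℝ) := by
        exact_mod_cast h3
      push_cast at h4 h5
      linarith
    · have h3 : max (w q) (w' q) + e i q + 2 * m < z j q - e j q := by
        have : max (w q) (w' q) < z j q - e j q - e i q - 2 * m :=
          max_lt (by linarith) (by linarith)
        linarith
      have h5 := h2.2
      generalize max (w q) (w' q) = M at h3 h5
      have h4 : ((M + e i q + 2 * m : ℚ) : ℝ) < ((z j q - e j q : ℚ) : ℝ) := by
        exact_mod_cast h3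
      push_cast at h4 h5
      linarith
  · funext j x
    by_cases hj : j = i
    · subst hj
      funext q
      simp only [Function.update_self]
      simp only [shearMap, affFun, cfg, Function.update_self, ratPoint, Pi.add_apply,
        Pi.smul_apply, smul_eq_mul, Rat.cast_zero, zero_mul, Finset.sum_const_zero, add_zero]
      by_cases hq : q = d
      · subst hq
        simp only [Pi.single_eq_same]
        push_cast
        ring
      · rw [Pi.single_eq_of_ne hq, hw q hq]
        push_cast
        ring
    · simp only [cfg, Function.update_of_ne hj]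

/-- **WP-C1 (parking).**  If the boxes currently sit in pairwise disjoint rational boxes
`box (c i) (e i)`, they can be translated, one at a time, to the parking positions
(for all large `R`). -/
theorem parking (a h : Fin n → Fin 3 → ℚ) (C : Config n) (c e : Fin n → Fin 3 → ℚ)
    (he : ∀ i j, 0 < e i j)
    (hdisj : Pairwise fun i i' => Disjoint (box (c i) (e i)) (box (c i') (e i')))
    (hC : ∀ i, ∀ x ∈ box (a i) (h i), C i x ∈ box (c i) (e i)) :
    ∃ R₀ : ℚ, ∀ R : ℚ, R₀ ≤ R →
      Relation.ReflTransGen (Step a h) C
        (fun i x => C i x + ratPoint (fun j => parkPos R i j - c i j)) := by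
  classical
  -- a bound `D` for all containers
  obtain ⟨D, hD⟩ : ∃ D : ℚ, ∀ i q, |c i q| + e i q ≤ D := by
    refine ⟨∑ i, ∑ q, (|c i q| + e i q), fun i q => ?_⟩
    have h1 : |c i q| + e i q ≤ ∑ q, (|c i q| + e i q) :=
      Finset.single_le_sum (f := fun q => |c i q| + e i q)
        (fun q _ => add_nonneg (abs_nonneg _) (he i q).le) (Finset.mem_univ q)
    have h2 : ∑ q, (|c i q| + e i q) ≤ ∑ i, ∑ q, (|c i q| + e i q) :=
      Finset.single_le_sum (f := fun i => ∑ q, (|c i q| + e i q))
        (fun i _ => Finset.sum_nonneg fun q _ => add_nonneg (abs_nonneg _) (he i q).le)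
        (Finset.mem_univ i)
    exact h1.trans h2
  have hub : ∀ j q, c j q + e j q ≤ D := fun j q => by
    have := hD j q; have := le_abs_self (c j q); linarith
  have hlb : ∀ j q, -D ≤ c j q - e j q := fun j q => by
    have := hD j q; have := neg_abs_le (c j q); linarith
  have heD : ∀ j q, e j q ≤ D := fun j q => by
    have := hD j q; have := abs_nonneg (c j q); linarith
  -- a uniform gap `δ`
  obtain ⟨δ, hδ, hsep⟩ : ∃ δ : ℚ, 0 < δ ∧
      ∀ i j, i ≠ j → ∃ q, e i q + e j q + δ ≤ |c i q - c j q| := by
    have hsep0 : ∀ p : {p : Fin n × Fin n // p.1 ≠ p.2},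
        ∃ q, e p.1.1 q + e p.1.2 q < |c p.1.1 q - c p.1.2 q| :=
      fun p => sep_of_disjoint _ _ _ _ (he _) (he _) (hdisj p.2)
    choose qf hqf using hsep0
    obtain ⟨δ, hδ, hδle⟩ := exists_pos_le
      (fun p => |c p.1.1 (qf p) - c p.1.2 (qf p)| - e p.1.1 (qf p) - e p.1.2 (qf p))
      (fun p => by linarith [hqf p])
    exact ⟨δ, hδ, fun i j hij => ⟨qf ⟨(i, j), hij⟩, by linarith [hδle ⟨(i, j), hij⟩]⟩⟩
  -- the margin
  obtain ⟨m, hm, hmδ, hm1⟩ : ∃ m : ℚ, 0 < m ∧ 2 * m < δ ∧ 2 * m < 1 := by
    refine ⟨min δ 1 / 4, div_pos (lt_min hδ one_pos) (by norm_num), ?_, ?_⟩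
    · have := min_le_left δ 1; linarith
    · have := min_le_right δ 1; linarith
  refine ⟨2 * D + 2, fun R hR => ?_⟩
  have hRpos : ∀ j : Fin n, R ≤ R * (((j : ℕ) : ℚ) + 1) := fun j => by
    have h1 : (0 : ℚ) ≤ ((j : ℕ) : ℚ) := Nat.cast_nonneg _
    have h2 : 0 ≤ R := by
      have := hub j 0; have := hlb j 0; have := he j 0; linarith
    nlinarith
  -- heights of tops, the state after parking the set `s`
  set top : Fin n → ℚ := fun i => c i 2 + e i 2 with htop
  set zs : Finset (Fin n) → Fin n → Fin 3 → ℚ :=
    fun s j => if j ∈ s then parkPos R j else c j with hzs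
  have key : ∀ (k : ℕ) (s : Finset (Fin n)), s.card = k →
      (∀ i ∈ s, ∀ j, j ∉ s → top j ≤ top i) →
      Relation.ReflTransGen (Step a h) C (cfg C c (zs s)) := by
    intro k
    induction k with
    | zero =>
      intro s hs _
      have hs' : s = ∅ := Finset.card_eq_zero.mp hs
      subst hs'
      have : cfg C c (zs ∅) = C := by
        funext j x q
        simp [cfg, hzs, ratPoint]
      rw [this]
    | succ k ih =>
      intro s hs hinv
      have hne : s.Nonempty := by
        rw [← Finset.card_pos]; omega
      obtain ⟨i, his, himin⟩ := Finset.exists_min_image s top hne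
      have h1 := ih (s.erase i) (by rw [Finset.card_erase_of_mem his]; omega) (by
        intro i' hi' j hj
        have hi's : i' ∈ s := Finset.mem_of_mem_erase hi'
        by_cases hji : j = i
        · subst hji; exact himin i' hi's
        · exact hinv i' hi's j (fun hjs => hj (Finset.mem_erase.mpr ⟨hji, hjs⟩)))
      refine h1.trans ?_
      set z0 := zs (s.erase i) with hz0
      set L : ℚ := 2 * D + 2 with hL
      have hz0park : ∀ j, j ∈ s.erase i → z0 j = parkPos R j := fun j hj => if_pos hj
      have hz0c : ∀ j, j ∉ s.erase i → z0 j = c j := fun j hj => if_neg hj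
      have hpark0 : ∀ j : Fin n, parkPos R j 0 = R * (((j : ℕ) : ℚ) + 1) := fun j => rfl
      have hpark2 : ∀ j : Fin n, parkPos R j 2 = 0 := fun j => rfl
      -- all other boxes are low
      have hlow : ∀ j, z0 j 2 + e j 2 ≤ D := by
        intro j
        by_cases hj : j ∈ s.erase i
        · rw [hz0park j hj, hpark2]; have := heD j 2; linarith
        · rw [hz0c j hj]; exact hub j 2
      have e0 : cfg C c z0 = cfg C c (Function.update z0 i (c i)) := by
        rw [Function.update_eq_self_iff.mpr]
        exact (hz0c i (Finset.notMem_erase i s)).symm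
      have e4 : cfg C c (Function.update z0 i ![R * (((i : ℕ) : ℚ) + 1), 0, 0])
          = cfg C c (zs s) := by
        congr 1
        funext j
        by_cases hj : j = i
        · subst hj
          rw [Function.update_self]
          simp only [hzs, if_pos his]
          rfl
        · rw [Function.update_of_ne hj]
          simp only [hz0, hzs, Finset.mem_erase, hj, ne_eq, not_false_eq_true, true_and]
      -- step 1: lift
      have S1 : Step a h (cfg C c (Function.update z0 i (c i)))
          (cfg C c (Function.update z0 i ![c i 0, c i 1, L])) := by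
        have hw1 : ∀ q : Fin 3, q ≠ 2 → (![c i 0, c i 1, L] : Fin 3 → ℚ) q = c i q := by
          intro q hq
          fin_cases q
          · rfl
          · rfl
          · exact absurd rfl hq
        refine step_move a h C c e he hC z0 i 2 _ _ hw1 m hm ?_
        intro j hji
        by_cases hjs : j ∈ s.erase i
        · refine ⟨0, Or.inr ⟨?_, ?_⟩⟩
          · rw [hz0park j hjs, hpark0]
            have := hRpos j; have := hub i 0; have := heD j 0; linarith
          · rw [hz0park j hjs, hpark0]
            show c i 0 + e i 0 + 2 * m < R * (((j : ℕ) : ℚ) + 1) - e j 0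
            have := hRpos j; have := hub i 0; have := heD j 0; linarith
        · have hjs' : j ∉ s := fun hh => hjs (Finset.mem_erase.mpr ⟨hji, hh⟩)
          have htj : top j ≤ top i := hinv i his j hjs'
          obtain ⟨q, hq⟩ := hsep i j (Ne.symm hji)
          refine ⟨q, ?_⟩
          rw [hz0c j hjs]
          by_cases hq2 : q = 2
          · subst hq2
            show (c j 2 + e j 2 + 2 * m < c i 2 - e i 2 ∧ c j 2 + e j 2 + 2 * m < L - e i 2) ∨
              (c i 2 + e i 2 + 2 * m < c j 2 - e j 2 ∧ L + e i 2 + 2 * m < c j 2 - e j 2)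
            rcases le_abs.mp hq with h2 | h2
            · left
              have := hub i 2; have := hlb i 2; have := he i 2
              constructor <;> linarith
            · exfalso
              simp only [htop] at htj
              have := he j 2; have := he i 2
              linarith
          · rw [hw1 q hq2]
            rcases le_abs.mp hq with h2 | h2
            · left; constructor <;> linarith
            · right; constructor <;> linarith
      -- step 2: move along the first axis at height `L`
      have S2 : Step a h (cfg C c (Function.update z0 i ![c i 0, c i 1, L]))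
          (cfg C c (Function.update z0 i ![R * (((i : ℕ) : ℚ) + 1), c i 1, L])) := by
        refine step_move a h C c e he hC z0 i 0 _ _ ?_ m hm ?_
        · intro q hq
          fin_cases q
          · exact absurd rfl hq
          · rfl
          · rfl
        · intro j hji
          refine ⟨2, Or.inl ⟨?_, ?_⟩⟩
          · show z0 j 2 + e j 2 + 2 * m < L - e i 2
            have := hlow j; have := heD i 2; linarith
          · show z0 j 2 + e j 2 + 2 * m < L - e i 2
            have := hlow j; have := heD i 2; linarith
      -- step 3: move along the second axis at height `L`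
      have S3 : Step a h (cfg C c (Function.update z0 i ![R * (((i : ℕ) : ℚ) + 1), c i 1, L]))
          (cfg C c (Function.update z0 i ![R * (((i : ℕ) : ℚ) + 1), 0, L])) := by
        refine step_move a h C c e he hC z0 i 1 _ _ ?_ m hm ?_
        · intro q hq
          fin_cases q
          · rfl
          · exact absurd rfl hq
          · rfl
        · intro j hji
          refine ⟨2, Or.inl ⟨?_, ?_⟩⟩
          · show z0 j 2 + e j 2 + 2 * m < L - e i 2
            have := hlow j; have := heD i 2; linarith
          · show z0 j 2 + e j 2 + 2 * m < L - e i 2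
            have := hlow j; have := heD i 2; linarith
      -- step 4: lower
      have S4 : Step a h (cfg C c (Function.update z0 i ![R * (((i : ℕ) : ℚ) + 1), 0, L]))
          (cfg C c (Function.update z0 i ![R * (((i : ℕ) : ℚ) + 1), 0, 0])) := by
        refine step_move a h C c e he hC z0 i 2 _ _ ?_ m hm ?_
        · intro q hq
          fin_cases q
          · rfl
          · rfl
          · exact absurd rfl hq
        · intro j hji
          refine ⟨0, ?_⟩
          show (z0 j 0 + e j 0 + 2 * m < R * (((i : ℕ) : ℚ) + 1) - e i 0 ∧
              z0 j 0 + e j 0 + 2 * m < R * (((i : ℕ) : ℚ) + 1) - e i 0) ∨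
            (R * (((i : ℕ) : ℚ) + 1) + e i 0 + 2 * m < z0 j 0 - e j 0 ∧
              R * (((i : ℕ) : ℚ) + 1) + e i 0 + 2 * m < z0 j 0 - e j 0)
          have hR0 : 0 ≤ R := by
            have := hub j 0; have := hlb j 0; have := he j 0; linarith
          by_cases hjs : j ∈ s.erase i
          · rw [hz0park j hjs, hpark0]
            have hne' : (j : ℕ) ≠ (i : ℕ) := fun hh => hji (Fin.ext hh)
            rcases Nat.lt_or_gt_of_ne hne' with hlt | hlt
            · left
              have h3 : ((j : ℕ) : ℚ) + 1 ≤ ((i : ℕ) : ℚ) := by exact_mod_cast hlt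
              have h4 : R * (((j : ℕ) : ℚ) + 1) + R ≤ R * (((i : ℕ) : ℚ) + 1) := by nlinarith
              have := heD j 0; have := heD i 0
              constructor <;> linarith
            · right
              have h3 : ((i : ℕ) : ℚ) + 1 ≤ ((j : ℕ) : ℚ) := by exact_mod_cast hlt
              have h4 : R * (((i : ℕ) : ℚ) + 1) + R ≤ R * (((j : ℕ) : ℚ) + 1) := by nlinarith
              have := heD j 0; have := heD i 0
              constructor <;> linarith
          · left
            rw [hz0c j hjs]
            have := hRpos i; have := hub j 0; have := heD i 0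
            constructor <;> linarith
      rw [e0, ← e4]
      exact Relation.ReflTransGen.head S1 (Relation.ReflTransGen.head S2
        (Relation.ReflTransGen.head S3 (Relation.ReflTransGen.single S4)))
  have hfin := key _ Finset.univ rfl (fun i _ j hj => absurd (Finset.mem_univ j) hj)
  have : cfg C c (zs Finset.univ)
      = (fun i x => C i x + ratPoint (fun j => parkPos R i j - c i j)) := by
    funext i x
    simp [cfg, hzs]
  rw [this] at hfin
  exact hfin

end Crest.Agent.Helper2
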